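import Vale.Agent.P352W.Ap.Ker
import Vale.Agent.P352W.Fk.Pw
import Vale.Agent.P352W.Fk.Lin
import Vale.Agent.P352W.Fk.Bas
import Vale.Agent.P352W.Kr.Ker

/-! # P352R: point splitting of the symbols of the Wick monomials (helper89) -/

set_option linter.all false

open Set MeasureTheory Metric
open scoped ComplexConjugate Classical
open Complex (I exp)

namespace Vale.Agent.P352R.Ap

open Vale.Agent.P352.GF Vale.Agent.P352W Vale.Agent.P352W.Fk Vale.Agent.P352W.Cn
open Vale.Agent.P352.H246 (In)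

noncomputable section

/-- multipliers which act locally -/
structure Mp (a : V → ℂ) : Prop where
  me : Measurable a
  bd : ∃ (k : ℕ) (c : ℝ), 0 ≤ c ∧ ∀ p, ‖a p‖ ≤ c * rr p ^ k
  lo : ∀ W ρ, In W ρ → ∃ g, In W g ∧ ∀ p, ft g p = a p * ft ρ p

/-- polynomial symbols -/
inductive Pn : ℕ → Wf → Prop
  | vc : Pn 0 vc
  | zero (n) : Pn n 0
  | add {n P P'} : Pn n P → Pn n P' → Pn n (P + P')
  | smul (c : ℂ) {n P} : Pn n P → Pn n (c • P)
  | cr {a n P} : Mp a → Pn n P → Pn (n + 1) (dv fun p => a p • P)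

/-- tensor symbols with supports in `O` -/
inductive Tn (O : Set V) : ℕ → Wf → Prop
  | vc : Tn O 0 vc
  | zero (n) : Tn O n 0
  | add {n κ κ'} : Tn O n κ → Tn O n κ' → Tn O n (κ + κ')
  | smul (c : ℂ) {n κ} : Tn O n κ → Tn O n (c • κ)
  | cr {g n κ} : In O g → Tn O n κ → Tn O (n + 1) (dv fun p => ft g p • κ)

variable {a b u : V → ℂ} {O W : Set V} {n : ℕ} {P κ : Wf} {f ρ : Fn}

theorem Mp.const (c : ℂ) : Mp fun _ => c :=
  ⟨measurable_const, ⟨0, ‖c‖, norm_nonneg c, fun p => by simp⟩,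
    fun W ρ h => ⟨_, P352X.Ap.in_cmul c h, fun p => P352X.ft_mul _ _ _⟩⟩

theorem Mp.mom (m : Ix) : Mp fun p => p m :=
  ⟨Complex.measurable_ofReal.comp (measurable_pi_apply m), ⟨1, 1, zero_le_one, fun p =>
    (Ker.nm_le m p).trans (by unfold rr; linarith)⟩, Ker.ex_mom m⟩

theorem Mp.mul (h : Mp a) (h' : Mp b) : Mp fun p => a p * b p := by
  obtain ⟨k, c, c0, e⟩ := h.bd
  obtain ⟨k', c', c0', e'⟩ := h'.bd
  refine ⟨h.me.mul h'.me, ⟨k + k', c * c', mul_nonneg c0 c0', fun p => ?_⟩, fun W ρ i => ?_⟩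
  · rw [norm_mul, pow_add, mul_mul_mul_comm]
    exact mul_le_mul (e p) (e' p) (norm_nonneg _) ((norm_nonneg _).trans (e p))
  · obtain ⟨g, i1, e1⟩ := h'.lo W ρ i
    obtain ⟨g', i2, e2⟩ := h.lo W g i1
    exact ⟨g', i2, fun p => by rw [e2, e1, mul_assoc]⟩

theorem Mp.add (h : Mp a) (h' : Mp b) : Mp fun p => a p + b p := by
  obtain ⟨k, c, c0, e⟩ := h.bd
  obtain ⟨k', c', c0', e'⟩ := h'.bd
  refine ⟨h.me.add h'.me, ⟨k + k', c + c', add_nonneg c0 c0', fun p => ?_⟩, fun W ρ i => ?_⟩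
  · rw [add_mul]
    exact (norm_add_le _ _).trans (add_le_add ((e p).trans (mul_le_mul_of_nonneg_left
      (pow_le_pow_right₀ (rr_one p) (k.le_add_right k')) c0)) ((e' p).trans
        (mul_le_mul_of_nonneg_left (pow_le_pow_right₀ (rr_one p) (k'.le_add_left k)) c0')))
  · obtain ⟨g, i1, e1⟩ := h.lo W ρ i
    obtain ⟨g', i2, e2⟩ := h'.lo W ρ i
    refine ⟨_, P352X.Ap.in_add i1 i2, fun p => ?_⟩
    rw [add_mul, ← e1, ← e2]
    exact P352X.ft_add i1.1 i2.1 p

theorem Mp.sum {ι : Type*} (s : Finset ι) {F : ι → V → ℂ} (h : ∀ i ∈ s, Mp (F i)) :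
    Mp fun p => ∑ i ∈ s, F i p := by
  induction s using Finset.induction_on with
  | empty => simpa using Mp.const 0
  | insert i s hi ih =>
    simp only [Finset.sum_insert hi]
    exact (h i (Finset.mem_insert_self i s)).add (ih fun j hj => h j (Finset.mem_insert_of_mem hj))

theorem Mp.prod {ι : Type*} (s : Finset ι) {F : ι → V → ℂ} (h : ∀ i ∈ s, Mp (F i)) :
    Mp fun p => ∏ i ∈ s, F i p := by
  induction s using Finset.induction_on with
  | empty => simpa using Mp.const 1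
  | insert i s hi ih =>
    simp only [Finset.prod_insert hi]
    exact (h i (Finset.mem_insert_self i s)).mul (ih fun j hj => h j (Finset.mem_insert_of_mem hj))

theorem Mp.pow (h : Mp a) (k : ℕ) : Mp fun p => a p ^ k := by
  simpa using Mp.prod (Finset.range k) fun _ _ => h

/-- polynomials act locally -/
theorem Mp.poly (q : MvPolynomial Ix ℂ) : Mp fun p => MvPolynomial.eval (fun m => (p m : ℂ)) q := by
  induction q using MvPolynomial.induction_on with
  | C c => simpa using Mp.const c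
  | add q q' h h' => simpa using h.add h'
  | mul_X q m h => simpa using h.mul (Mp.mom m)

theorem Pn.sum {ι : Type*} (s : Finset ι) {F : ι → Wf} (h : ∀ i ∈ s, Pn n (F i)) :
    Pn n (∑ i ∈ s, F i) := Finset.sum_induction F (Pn n) (fun _ _ => .add) (.zero n) h

theorem Tn.sum {ι : Type*} (s : Finset ι) {F : ι → Wf} (h : ∀ i ∈ s, Tn O n (F i)) :
    Tn O n (∑ i ∈ s, F i) := Finset.sum_induction F (Tn O n) (fun _ _ => .add) (.zero n) h

theorem dv_le {F : V → Wf} {C : ℝ} {k : ℕ} (h : ∀ p τ, ‖F p τ‖ ≤ C * (rr p * wt τ) ^ k)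
    (σ : Multiset V) : ‖dv F σ‖ ≤ C * wt σ ^ (k + 1) := by
  have c0 : 0 ≤ C := nonneg_of_mul_nonneg_left ((norm_nonneg _).trans (h 0 0))
    (pow_pos (mul_pos (rr_pos 0) (wt_pos 0)) k)
  have := Multiset.sum_le_card_nsmul (((σ.map fun p => F p (σ.erase p))).map fun x => ‖x‖)
    (C * wt σ ^ k) (by
      intro x hx
      simp only [Multiset.map_map, Multiset.mem_map, Function.comp] at hx
      obtain ⟨p, hp, rfl⟩ := hx
      rw [wt_erase hp]
      exact h p _)
  simp only [Multiset.card_map, nsmul_eq_mul] at this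
  refine ((norm_multiset_sum_le _).trans this).trans ?_
  rw [pow_succ', mul_left_comm]
  exact mul_le_mul_of_nonneg_left (mul_le_mul_of_nonneg_right (card_le_wt σ)
    (pow_pos (wt_pos σ) k).le) c0

theorem Pn.bd (h : Pn n P) : ∃ (k : ℕ) (c : ℝ), 0 < c ∧ ∀ σ, ‖P σ‖ ≤ c * wt σ ^ k := by
  induction h with
  | vc => exact ⟨0, 1, one_pos, fun σ => by unfold Fk.vc; split_ifs <;> simp⟩
  | zero => exact ⟨0, 1, one_pos, fun σ => by simp⟩
  | add _ _ h h' =>
    obtain ⟨k, c, c0, e⟩ := h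
    obtain ⟨k', c', c0', e'⟩ := h'
    refine ⟨k + k', c + c', add_pos c0 c0', fun σ => ?_⟩
    rw [add_mul]
    exact (norm_add_le _ _).trans (add_le_add ((e σ).trans (mul_le_mul_of_nonneg_left
      (pow_le_pow_right₀ (wt_one σ) (k.le_add_right k')) c0.le)) ((e' σ).trans
        (mul_le_mul_of_nonneg_left (pow_le_pow_right₀ (wt_one σ) (k'.le_add_left k)) c0'.le)))
  | smul z _ h =>
    obtain ⟨k, c, c0, e⟩ := h
    refine ⟨k, (‖z‖ + 1) * c, by positivity, fun σ => ?_⟩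
    rw [Pi.smul_apply, norm_smul, mul_assoc]
    exact mul_le_mul (by linarith) (e σ) (norm_nonneg _) (by positivity)
  | cr m _ h =>
    obtain ⟨k, c, c0, e⟩ := h
    obtain ⟨k', c', c0', e'⟩ := m.bd
    refine ⟨k + k' + 1, (c' + 1) * c, by positivity, dv_le fun p τ => ?_⟩
    have r := rr_one p
    have w := wt_one τ
    rw [Pi.smul_apply, norm_smul, mul_pow, mul_mul_mul_comm]
    exact mul_le_mul ((e' p).trans (mul_le_mul (by linarith) (pow_le_pow_right₀ r (k'.le_add_left k))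
      (by positivity) (by positivity))) ((e τ).trans (mul_le_mul_of_nonneg_left
        (pow_le_pow_right₀ w (k.le_add_right k')) c0.le)) (norm_nonneg _) (by positivity)

theorem Pn.ms (h : Pn n P) : Ms fun _ : Unit => P := by
  induction h with
  | vc => exact nice_vc.1
  | zero => exact nice_zero.1
  | add _ _ h h' => exact h.add h'
  | smul z _ h => exact h.smul measurable_const
  | cr m _ h => exact Ms.dv ((h.at ()).smul (m.me.comp measurable_snd))

theorem nice_cr (h : Hs u) (k : Nice κ) : Nice (dv fun p => u p • κ) :=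
  ⟨Ms.dv ((k.1.at ()).smul (h.1.comp measurable_snd)), fun N => (h.2 (N + 1)).elim fun _ e =>
    (k.2 (N + 1)).elim fun _ e' => ⟨_, bd_cr e e'⟩⟩

theorem Tn.nice (h : Tn O n κ) : Nice κ := by
  induction h with
  | vc => exact nice_vc
  | zero => exact nice_zero
  | add _ _ h h' => exact h.add h'
  | smul z _ h => exact h.smul z
  | cr i _ h => exact nice_cr (Kr.hs_ft i.1) h

/-- the product over the points -/
def pw (u : V → ℂ) : Wf := fun σ => (σ.map u).prod

theorem pw_cons (q : V) (σ : Multiset V) : pw u (q ::ₘ σ) = u q * pw u σ := by simp [pw]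

theorem pw_zero : pw u 0 = 1 := by simp [pw]

theorem dv_pw (a u : V → ℂ) (P : Wf) :
    dv (fun p => a p • P) * pw u = dv fun p => (a p * u p) • (P * pw u) := by
  funext σ
  rw [Pi.mul_apply, dv, dv, ← Multiset.sum_map_mul_right]
  refine congrArg _ (Multiset.map_congr rfl fun p hp => ?_)
  conv_lhs => rw [← Multiset.cons_erase hp, pw_cons, Multiset.cons_erase hp]
  simp only [Pi.smul_apply, Pi.mul_apply, smul_eq_mul]
  ring

theorem vc_pw : vc * pw u = vc := by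
  funext σ
  rw [Pi.mul_apply, Fk.vc]
  split_ifs with h
  · rw [h, pw_zero, one_mul]
  · exact zero_mul _

theorem Pn.tn (h : Pn n P) (i : In W ρ) : Tn W n (P * pw (ft ρ)) := by
  induction h with
  | vc => rw [vc_pw]; exact .vc
  | zero => exact (zero_mul (pw (ft ρ))).symm ▸ .zero _
  | add _ _ h h' => exact (add_mul _ _ (pw (ft ρ))).symm ▸ h.add h'
  | smul z _ h => exact (smul_mul_assoc z _ (pw (ft ρ))).symm ▸ h.smul z
  | cr m _ h =>
    obtain ⟨g, i1, e⟩ := m.lo W ρ i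
    rw [dv_pw]
    simp only [← e]
    exact h.cr i1

theorem Tn.tr {r : ℝ} {y : V} (h : Tn (closedBall 0 r) n κ) (o : closedBall y r ⊆ O) :
    Tn O n (κ * pw fun p => exp (I * mdot p y)) := by
  induction h with
  | vc => rw [vc_pw]; exact .vc
  | zero => exact (zero_mul (pw _)).symm ▸ .zero _
  | add _ _ h h' => exact (add_mul _ _ (pw _)).symm ▸ h.add h'
  | smul z _ h => exact (smul_mul_assoc z _ (pw _)).symm ▸ h.smul z
  | @cr g _ _ i _ h =>
    have e : ∀ p, ft g p * exp (I * mdot p y) = ft (fun x => g (x - y)) p := fun p =>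
      (mul_comm _ _).trans (P352X.ft_tsl' g y p).symm
    rw [dv_pw]
    simp only [e]
    exact h.cr (Ker.in_tr i o)

theorem pw_exp (y : V) (σ : Multiset V) :
    pw (fun p => exp (I * mdot p y)) σ = exp (I * mdot σ.sum y) := by
  induction σ using Multiset.induction_on with
  | empty => simp [pw_zero, mdot]
  | cons q σ ih =>
    rw [pw_cons, ih, Multiset.sum_cons, ← Complex.exp_add, ← mul_add, ← Complex.ofReal_add]
    congr 3
    simp only [P352X.mdot_eq, Pi.add_apply]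
    ring

theorem rr_sum (σ : Multiset V) : rr σ.sum ≤ 2 * wt σ := by
  induction σ using Multiset.induction_on with
  | empty => simp [rr, wt_zero]
  | cons q σ ih =>
    rw [Multiset.sum_cons, wt_cons, mul_left_comm]
    exact (rr_add _ _).trans (mul_le_mul_of_nonneg_left ih (rr_pos q).le)

theorem pw_le {δ : ℝ} (d : 0 ≤ δ) (h1 : ∀ p, ‖u p‖ ≤ 1) (h2 : ∀ p, ‖1 - u p‖ ≤ δ * ‖p‖)
    (σ : Multiset V) : ‖1 - pw u σ‖ ≤ δ * wt σ := by
  induction σ using Multiset.induction_on with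
  | empty => simpa [pw_zero, wt_zero] using d
  | cons q σ ih =>
    rw [pw_cons, wt_cons, show 1 - u q * pw u σ = (1 - u q) + u q * (1 - pw u σ) by ring]
    refine (norm_add_le _ _).trans ?_
    rw [norm_mul]
    have := mul_le_mul (h1 q) ih (norm_nonneg _) zero_le_one
    have w := wt_one σ
    have := mul_nonneg d (mul_nonneg (norm_nonneg q) (sub_nonneg.2 w))
    have := mul_nonneg d (zero_le_one.trans w)
    unfold rr
    nlinarith [h2 q]

/-- smeared tensors -/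
theorem apx_mul {r : ℝ} (hf : In univ f) (h : Tn (closedBall 0 r) n κ)
    (hO : ∀ y ∈ tsupport f, closedBall y r ⊆ O) (N : ℕ) {ε : ℝ} (hε : 0 < ε) :
    ∃ κ', Tn O n κ' ∧ ∀ σ, ‖κ σ * ft f σ.sum - κ' σ‖ * rr σ.sum ^ N ≤ ε := by
  obtain ⟨C, hC⟩ := h.nice.2 (N + 1)
  have C0 := hC.nn
  have J0 : 0 ≤ ∫ x, ‖f x‖ := integral_nonneg fun _ => norm_nonneg _
  set J := ∫ x, ‖f x‖
  set δ := ε / (4 * (J + 1) * (C + 1) * 2 ^ (N + 1)) with hδ
  have δ0 : 0 < δ := by positivity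
  obtain ⟨t, t1, t2, t3⟩ := finite_cover_balls_of_compact hf.2.1.isCompact δ0
  obtain ⟨c, hc⟩ := Ker.riem δ t2.toFinset f (P352X.test_int hf.1) fun x hx => by
    obtain ⟨y, hy, h⟩ := mem_iUnion₂.1 (t3 (subset_tsupport f hx))
    exact ⟨y, t2.mem_toFinset.2 hy, h⟩
  refine ⟨_, Tn.sum t2.toFinset fun y hy => (h.tr (hO y (t1 (t2.mem_toFinset.1 hy)))).smul (c y),
    fun σ => ?_⟩
  have e : (∑ y ∈ t2.toFinset, c y • (κ * pw fun p => exp (I * mdot p y))) σ =
      κ σ * ∑ y ∈ t2.toFinset, c y * exp (I * mdot σ.sum y) := by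
    rw [Finset.sum_apply, Finset.mul_sum]
    exact Finset.sum_congr rfl fun y _ => by
      rw [Pi.smul_apply, Pi.mul_apply, pw_exp, smul_eq_mul, mul_left_comm]
  have r0 := rr_pos σ.sum
  have w0 := wt_pos σ
  have a1 : ‖ft f σ.sum - ∑ y ∈ t2.toFinset, c y * exp (I * mdot σ.sum y)‖ ≤
      4 * rr σ.sum * δ * (J + 1) := (hc _).trans (by unfold rr; gcongr <;> linarith)
  have a2 : rr σ.sum ^ (N + 1) ≤ (2 * wt σ) ^ (N + 1) := pow_le_pow_left₀ r0.le (rr_sum σ) _
  rw [e, ← mul_sub, norm_mul]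
  calc _ ≤ ‖κ σ‖ * (4 * rr σ.sum * δ * (J + 1)) * rr σ.sum ^ N := by gcongr
    _ = 4 * δ * (J + 1) * (‖κ σ‖ * rr σ.sum ^ (N + 1)) := by ring
    _ ≤ 4 * δ * (J + 1) * (‖κ σ‖ * (2 * wt σ) ^ (N + 1)) := by gcongr
    _ = 4 * δ * (J + 1) * 2 ^ (N + 1) * (‖κ σ‖ * wt σ ^ (N + 1)) := by ring
    _ ≤ 4 * δ * (J + 1) * 2 ^ (N + 1) * (C + 1) := by gcongr; linarith [hC σ]
    _ = ε := by rw [hδ]; field_simp

/-- **point splitting of the symbols** -/
theorem apx (hO : IsOpen O) (hf : In O f) (h : Pn n P) : ∃ a : ℕ, ∀ (N : ℕ) (ε : ℝ), 0 < ε →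
    ∃ κ, Tn O n κ ∧ ∀ σ, ‖P σ * ft f σ.sum - κ σ‖ * rr σ.sum ^ N ≤ ε * wt σ ^ a := by
  obtain ⟨k, c, c0, hc⟩ := h.bd
  refine ⟨k + 1, fun N ε hε => ?_⟩
  obtain ⟨δ, δ0, hδ⟩ := hf.2.1.isCompact.exists_cthickening_subset_open hO hf.2.2
  obtain ⟨C, hC⟩ := (Kr.hs_ft hf.1).2 N
  have C0 : 0 ≤ C := le_trans (mul_nonneg (norm_nonneg _) (pow_pos (rr_pos 0) N).le) (hC 0)
  set r := min δ (ε / (8 * c * (C + 1))) with hr
  have r0 : 0 < r := lt_min δ0 (by positivity)
  obtain ⟨ρ, h1, h2, h3⟩ := Ker.bump r0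
  obtain ⟨κ, k1, k2⟩ := apx_mul ⟨hf.1, hf.2.1, subset_univ _⟩ (h.tn h1) (fun y hy =>
    (closedBall_subset_closedBall (min_le_left _ _)).trans
      ((closedBall_subset_cthickening hy δ).trans hδ)) N (half_pos hε)
  refine ⟨κ, k1, fun σ => ?_⟩
  have w := wt_one σ
  have q := rr_pos σ.sum
  have a1 := pw_le (u := ft ρ) (δ := 4 * r) (by positivity) h2 (fun p => (h3 p).trans_eq (by ring)) σ
  have a2 : r * (8 * c * (C + 1)) ≤ ε := (le_div_iff₀ (by positivity)).1 (min_le_right _ _)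
  have a3 : ‖P σ * (1 - pw (ft ρ) σ) * ft f σ.sum‖ * rr σ.sum ^ N ≤ ε / 2 * wt σ ^ (k + 1) := by
    rw [norm_mul, norm_mul, mul_assoc]
    calc _ ≤ c * wt σ ^ k * (4 * r * wt σ) * (C + 1) := by
          gcongr
          exacts [hc σ, by linarith [hC σ.sum]]
      _ = r * (8 * c * (C + 1)) / 2 * wt σ ^ (k + 1) := by ring
      _ ≤ _ := by gcongr
  have a4 := (k2 σ).trans (le_mul_of_one_le_right (half_pos hε).le (one_le_pow₀ (n := k + 1) w))
  rw [show P σ * ft f σ.sum - κ σ = P σ * (1 - pw (ft ρ) σ) * ft f σ.sum +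
    ((P * pw (ft ρ)) σ * ft f σ.sum - κ σ) by rw [Pi.mul_apply]; ring]
  refine (mul_le_mul_of_nonneg_right (norm_add_le _ _) (by positivity)).trans ?_
  rw [add_mul]
  linarith

/-- the contraction -/
def ct (h : V → ℂ) (κ : Wf) : Wf := it fun q => h (-q) • κ

theorem ct_zero : ct u 0 = 0 := by
  funext σ
  simp [ct, it]

theorem dv_smul_zero : dv (fun p => u p • (0 : Wf)) = 0 := by
  funext σ
  simp [dv]

theorem Tn.ct (hu : Hs u) (h : Tn O n κ) : Tn O (n - 1) (ct u κ) ∧ (n = 0 → ct u κ = 0) := by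
  induction h with
  | vc =>
    have : Ap.ct u Fk.vc = 0 := by
      funext σ
      simp [Ap.ct, it, Fk.vc]
    exact ⟨this ▸ .zero _, fun _ => this⟩
  | zero => exact ⟨by rw [ct_zero]; exact .zero _, fun _ => ct_zero⟩
  | @add _ κ κ' t t' h h' =>
    have : Ap.ct u (κ + κ') = Ap.ct u κ + Ap.ct u κ' := by
      unfold Ap.ct
      rw [← Bq.it_add (int_ph hu t.nice) (int_ph hu t'.nice)]
      simp only [smul_add]
    exact ⟨this ▸ h.1.add h'.1, fun e => by rw [this, h.2 e, h'.2 e, add_zero]⟩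
  | @smul z _ κ _ h =>
    have : Ap.ct u (z • κ) = z • Ap.ct u κ := by
      unfold Ap.ct
      rw [← Bq.it_smul]
      simp only [smul_comm z]
    exact ⟨this ▸ h.1.smul z, fun e => by rw [this, h.2 e, smul_zero]⟩
  | @cr g n κ i t h =>
    have : Ap.ct u (dv fun p => ft g p • κ) =
        (∫ q, u (-q) * ft g q ∂Om) • κ + dv fun p => ft g p • Ap.ct u κ := by
      funext σ
      rw [dv_eq, dv_eq]
      exact (Ms.an_cr (g := fun q => u (-q)) (h := ft g) (μ := Om) 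
        (Pw.j8 (Kt.Rd.pg (Kr.hs_ft i.1)) (Kt.rd_neg hu))
        (int_ph hu t.nice) σ).trans (congrArg _ (Ms.cr_an σ).symm)
    refine ⟨this ▸ (t.smul _).add ?_, nofun⟩
    rcases n with _ | n
    · rw [h.2 rfl, dv_smul_zero]
      exact .zero _
    · exact h.1.cr i

end

end Vale.Agent.P352R.Ap
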