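import Vale.Agent.P352R.Ap.Ps
import Vale.Agent.P352R.Df

/-! # P352R: the row `ps` for the Wick monomials (helper89) -/

set_option linter.all false

open scoped ComplexConjugate Classical

namespace Vale.Agent.P352R.Ap

open Vale.Agent.P352.GF Vale.Agent.P352W Vale.Agent.P352W.Fk Vale.Agent.P352W.Cn

noncomputable section

namespace Mo

theorem sy_mul (c : ℂ) (n : ℕ) : ∀ G : (Fin n → V) → ℂ, sy n (fun x => c * G x) = c • sy n G := by
  induction n with
  | zero => exact fun G => mul_smul c _ _
  | succ n ih => exact fun G => by simp only [sy, ih, Bq.dv_smul]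

theorem st_dv (F : V → Wf) : st (dv F) = dv fun p => st (F (-p)) := by
  funext σ
  simp only [st, dv, map_multiset_sum, Multiset.map_map, Function.comp]
  exact congrArg _ (Multiset.map_congr rfl fun p _ => by
    rw [Multiset.map_erase _ neg_injective])

theorem st_sy (n : ℕ) : ∀ G : (Fin n → V) → ℂ, st (sy n G) = sy n fun x => conj (G (-x)) := by
  induction n with
  | zero => exact fun G => by rw [sy, sy, Ps.st_smul, Ps.st_vc, Subsingleton.elim (-default) default]
  | succ n ih =>
    intro G
    simp only [sy, st_dv, ih]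
    congr 1 with p
    congr 2 with x
    congr 2 with i
    refine Fin.cases rfl (fun _ => rfl) i

end Mo

open Mo

/-- symmetrised products are polynomial symbols -/
theorem pn_sy (n : ℕ) : ∀ a : Fin n → V → ℂ, (∀ i, Mp (a i)) →
    Pn n (sy n fun x => ∏ i, a i (x i)) := by
  induction n with
  | zero => exact fun a _ => Pn.vc.smul _
  | succ n ih =>
    intro a h
    simp only [sy, Fin.prod_univ_succ, Fin.cons_zero, Fin.cons_succ, sy_mul]
    exact (ih _ fun i => h i.succ).cr (h 0)

variable {n k : ℕ} (π : Fin k → Fin n) (μ : Fin k → Ix) {f : Fn} {ψ : Wf}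

theorem pn_tm : Pn n (sy n (tm π μ)) := by
  have e : tm π μ = fun x => ∏ i, ∏ j ∈ Finset.univ.filter (π · = i), Complex.I * x i (μ j) := by
    funext x
    rw [tm, ← Finset.prod_fiberwise Finset.univ π]
    exact Finset.prod_congr rfl fun i _ => Finset.prod_congr rfl fun j hj => by
      rw [(Finset.mem_filter.1 hj).2]
  rw [e]
  exact pn_sy n (fun i p => ∏ j ∈ Finset.univ.filter (π · = i), Complex.I * p (μ j)) fun i =>
    Mp.prod _ fun j _ => (Mp.const _).mul (Mp.mom _)

theorem st_tm : st (sy n (tm π μ)) = sy n (tm π μ) := by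
  rw [st_sy]
  congr 1 with x
  simp [tm]

theorem gs_kS (hf : IsTest f) : Gs (kS n (tm π μ) f) := gs_sym (pn_tm π μ) hf

theorem st_kS (f : Fn) : st (kS n (tm π μ) f) = kS n (tm π μ) (bar f) :=
  (st_sym _ f).trans (by rw [st_tm]; rfl)

namespace Mo

theorem nice (h : P352R.Wd ψ) : Nice ψ := by
  induction h with
  | vc => exact nice_vc
  | zero => exact nice_zero
  | add _ _ a b => exact a.add b
  | smul c _ a => exact a.smul c
  | ph hf _ a => exact nice_ph (Kr.hs_ft hf) a
  | qq m n hf _ a => exact nice_qq (Kr.ks_kT m n hf) a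
  | wk π μ hf _ a => exact nice_W _ (gs_kS π μ hf) a

theorem isD (v : P352R.D) : P352R.IsD v.1 := by
  obtain ⟨v, h⟩ := v
  induction h using Submodule.span_induction with
  | mem x h => exact h
  | zero => exact ⟨0, .zero, toL_zero⟩
  | add x y _ _ a b =>
    obtain ⟨ψ, a, rfl⟩ := a
    obtain ⟨χ, b, rfl⟩ := b
    exact ⟨_, a.add b, toL_add (nice a) (nice b)⟩
  | smul c x _ a =>
    obtain ⟨ψ, a, rfl⟩ := a
    exact ⟨_, a.smul c, toL_smul c (nice a)⟩

theorem rep_spec (v : P352R.D) : P352R.Wd (P352R.rep v) ∧ toL (P352R.rep v) = v.1 := by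
  rw [P352R.rep, dif_pos (isD v)]
  exact (isD v).choose_spec

theorem mk_val (h : P352R.Wd ψ) : (P352R.mk ψ).1 = toL ψ := by rw [P352R.mk, dif_pos h]

end Mo

/-- the domain of the Wick monomials -/
theorem dm : Dm P352R.D0.subtype P352R.rep P352R.Ph where
  iso _ := rfl
  nice v := Mo.nice (rep_spec v).1
  tl v := (rep_spec v).2
  ph _ v hg := mk_val ((rep_spec v).1.ph hg)

/-- **the row `ps`** -/
theorem ps_Mo (wk : WICK) : PS P352R.Ph (P352R.Mo π μ) :=
  dm.ps wk (pn_tm π μ) (st_tm π μ) fun _ v hf => mk_val ((rep_spec v).1.wk π μ hf)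

end

end Vale.Agent.P352R.Ap
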