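import Vale.Agent.P352R.Ap.Ker
import Vale.Agent.P352R.W.Adj
import Vale.Agent.P352W.Gl.Ps0

/-! # P352R: the Wick monomials are generated locally by the free field (helper89) -/

set_option linter.all false

open Set MeasureTheory
open scoped ComplexConjugate Classical

namespace Vale.Agent.P352R.Ap

open Vale.Agent.P352.GF Vale.Agent.P352W Vale.Agent.P352W.Fk Vale.Agent.P352W.Cn
open Vale.Agent.P352.H246 (In)

noncomputable section

/-- the Wick product -/
def WICK : Prop := ∀ (h : V → ℂ) (n : ℕ) (κ ψ : Wf), Hs h → Nice κ → Nice ψ →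
  ph h (W n κ ψ) = ((n : ℂ) + 1)⁻¹ • W (n + 1) (dv fun p => h p • κ) ψ +
    (n : ℂ) • W (n - 1) (it fun q => h (-q) • κ) ψ

variable {n : ℕ} {P κ κ' ψ ψ' χ : Wf} {f g : Fn} {O : Set V}

theorem gs_nice (h : Nice κ) : Gs κ := ⟨h.1, 0, fun N => (h.2 N).elim fun C b => ⟨2 ^ N * C, fun σ => by
  rw [pow_zero, mul_one]
  refine (mul_le_mul_of_nonneg_left (pow_le_pow_left₀ (rr_pos _).le (rr_sum σ) N)
    (norm_nonneg _)).trans ?_
  rw [mul_pow, mul_left_comm]
  exact mul_le_mul_of_nonneg_left (b σ) (by positivity)⟩⟩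

theorem gs_sym (h : Pn n P) (hf : IsTest f) : Gs fun σ => P σ * ft f σ.sum := by
  obtain ⟨k, c, c0, e⟩ := h.bd
  refine ⟨h.ms.mul fun m => ?_, k, fun N => ((Kr.hs_ft hf).2 N).elim fun C b => ⟨c * C, fun σ => ?_⟩⟩
  · have : ∀ x : Fin m → V, (ms x).sum = ∑ i, x i := fun x => by simpa using sum_ms id x
    simp only [this]
    exact (Kr.hs_ft hf).1.comp (Finset.measurable_sum _ fun i _ =>
      (measurable_pi_apply i).comp measurable_snd)
  · rw [norm_mul, mul_assoc, mul_right_comm c]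
    exact mul_le_mul (e σ) (b _) (mul_nonneg (norm_nonneg _) (pow_pos (rr_pos _) N).le)
      ((norm_nonneg _).trans (e σ))

theorem st_sym (P : Wf) (f : Fn) :
    st (fun σ => P σ * ft f σ.sum) = fun σ => st P σ * ft (bar f) σ.sum := by
  funext σ
  have e : ft (bar f) σ.sum = conj (ft f (-σ.sum)) := P352X.ft_bar f _
  simp only [st, map_mul, e, Multiset.sum_map_neg']

namespace Ps

theorem W_smul (c : ℂ) (n : ℕ) : ∀ κ ψ : Wf, W n (c • κ) ψ = c • W n κ ψ := by
  induction n with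
  | zero => exact fun κ ψ => mul_smul c (κ 0) ψ
  | succ n ih =>
    intro κ ψ
    have e : ∀ p, cn p (c • κ) = c • cn p κ := fun p => rfl
    simp only [W, e, ih, smul_comm _ c, Bq.dv_smul, smul_add]
    exact congrArg _ (funext fun σ => integral_const_mul c _)

theorem W_add (n : ℕ) : ∀ {κ κ' ψ : Wf}, Gs κ → Gs κ' → Nice ψ →
    W n (κ + κ') ψ = W n κ ψ + W n κ' ψ := by
  induction n with
  | zero => exact fun _ _ _ => add_smul _ _ _
  | succ n ih =>
    intro κ κ' ψ a b c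
    have e : ∀ p, cn p (κ + κ') = cn p κ + cn p κ' := fun p => rfl
    have e1 := fun p => ih (a.cn p) (b.cn p) c
    have e2 := fun q => ih (a.cn (-q)) (b.cn (-q)) (nice_cn c q)
    simp only [W, e, e1, e2, smul_add, Bq.dv_add]
    rw [add_add_add_comm]
    exact congrArg _ (funext fun σ => integral_add (int_W2 n a c σ) (int_W2 n b c σ))

theorem st_add (κ κ' : Wf) : st (κ + κ') = st κ + st κ' := funext fun σ => map_add _ _ _

theorem st_smul (c : ℂ) (κ : Wf) : st (c • κ) = conj c • st κ := funext fun σ => map_mul _ _ _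

theorem st_vc : st vc = vc := funext fun σ => by simp [st, vc, apply_ite]

theorem W_vc (ψ : Wf) : W 0 vc ψ = ψ := by simp [W, vc]

/-- the vectors of good wave functions -/
def Rg : Submodule ℂ Fo where
  carrier := {x | ∃ ψ, Nice ψ ∧ toL ψ = x}
  zero_mem' := ⟨0, nice_zero, toL_zero⟩
  add_mem' := fun ⟨_, a, e⟩ ⟨_, b, e'⟩ => ⟨_, a.add b, e ▸ e' ▸ toL_add a b⟩
  smul_mem' := fun c _ ⟨_, a, e⟩ => ⟨_, a.smul c, e ▸ toL_smul c a⟩

theorem rg (h : Nice ψ) : toL ψ ∈ Rg := ⟨ψ, h, rfl⟩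

theorem ext {x y : Fo} (hx : x ∈ Rg) (hy : y ∈ Rg)
    (h : ∀ χ, Nice χ → inner ℂ x (toL χ) = inner ℂ y (toL χ)) : x = y := by
  obtain ⟨χ, a, e⟩ := sub_mem hx hy
  rw [← sub_eq_zero, ← inner_self_eq_zero (𝕜 := ℂ), inner_sub_left, ← e, h χ a, sub_self]

theorem aW (k : Gs κ) (a : Nice ψ) (b : Nice χ) :
    inner ℂ (toL (W n (st κ) ψ)) (toL χ) = inner ℂ (toL ψ) (toL (W n κ χ)) := by
  rw [inner_toL (nice_W n k.st a) b, inner_toL a (nice_W n k b), ip_W n k.st a b, st_st]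

theorem aP (hg : IsTest g) (a : Nice ψ) (b : Nice χ) :
    inner ℂ (toL (ph (ft g) ψ)) (toL χ) = inner ℂ (toL ψ) (toL (ph (ft (bar g)) χ)) := by
  rw [inner_toL (nice_ph (Kr.hs_ft hg) a) b, inner_toL a (nice_ph (Kr.hs_ft (P352X.Ap.test_bar hg)) b),
    ip_ph (Kr.hs_ft hg) a b, Kr.ft_bar']

theorem dW (k : Gs κ) (a : Nice ψ) (b : Nice ψ') (e : toL ψ = toL ψ') :
    toL (W n (st κ) ψ) = toL (W n (st κ) ψ') :=
  ext (rg (nice_W n k.st a)) (rg (nice_W n k.st b)) fun χ c => by rw [aW k a c, aW k b c, e]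

theorem dP (hg : IsTest g) (a : Nice ψ) (b : Nice ψ') (e : toL ψ = toL ψ') :
    toL (ph (ft g) ψ) = toL (ph (ft g) ψ') :=
  ext (rg (nice_ph (Kr.hs_ft hg) a)) (rg (nice_ph (Kr.hs_ft hg) b)) fun χ c => by
    rw [aP hg a c, aP hg b c, e]

theorem left (wk : WICK) (hg : IsTest g) (k : Nice κ) (k' : Nice (ct (ft g) κ)) (a : Nice ψ) :
    toL (W (n + 1) (dv fun p => ft g p • κ) ψ) = ((n : ℂ) + 1) •
      (toL (ph (ft g) (W n κ ψ)) - (n : ℂ) • toL (W (n - 1) (ct (ft g) κ) ψ)) := by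
  have h := Kr.hs_ft hg
  have a1 := nice_W (n + 1) (gs_nice (nice_cr h k)) a
  have a2 := nice_W (n - 1) (gs_nice k') a
  rw [wk _ n κ ψ h k a, ← ct, toL_add (a1.smul _) (a2.smul _), toL_smul _ a1, toL_smul _ a2,
    add_sub_cancel_right, smul_inv_smul₀ (Nat.cast_add_one_ne_zero n)]

theorem right (wk : WICK) (hg : IsTest g) (k : Nice κ) (k' : Nice (ct (ft g) κ)) (a : Nice ψ) :
    toL (W (n + 1) (st (dv fun p => ft g p • κ)) ψ) = ((n : ℂ) + 1) •
      (toL (W n (st κ) (ph (ft (bar g)) ψ)) - (n : ℂ) • toL (W (n - 1) (st (ct (ft g) κ)) ψ)) := by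
  have h := Kr.hs_ft hg
  have t := P352X.Ap.test_bar hg
  have b := nice_ph (Kr.hs_ft t) a
  refine ext (rg (nice_W _ (gs_nice (nice_cr h k)).st a)) (Rg.smul_mem _ (sub_mem
    (rg (nice_W _ (gs_nice k).st b)) (Rg.smul_mem _ (rg (nice_W _ (gs_nice k').st a))))) fun χ c => ?_
  have e : bar (bar g) = g := funext fun x => Complex.conj_conj _
  rw [aW (gs_nice (nice_cr h k)) a c, left wk hg k k' c, inner_smul_left, inner_sub_left,
    inner_smul_left, aW (gs_nice k) b c, aW (gs_nice k') a c, aP t a (nice_W _ (gs_nice k) c), e,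
    inner_smul_right, inner_sub_right, inner_smul_right]
  simp

end Ps

open Ps

variable {D : Type*} [NormedAddCommGroup D] [InnerProductSpace ℂ D]

/-- a domain of good wave functions which is stable under the free field -/
structure Dm (ι : D →ₗ[ℂ] Fo) (rep : D → Wf) (φ : Fld D) : Prop where
  iso : ∀ v, ‖ι v‖ = ‖v‖
  nice : ∀ v, Nice (rep v)
  tl : ∀ v, toL (rep v) = ι v
  ph : ∀ g v, IsTest g → ι (φ g v) = toL (ph (ft g) (rep v))

variable {ι : D →ₗ[ℂ] Fo} {rep : D → Wf} {φ B B' : Fld D} {S : D →ₗ⋆[ℂ] D →ₗ[ℂ] ℂ}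

/-- the form is invariant under the Wick products -/
theorem Dm.tn (d : Dm ι rep φ) (wk : WICK)
    (hS : ∀ g w v, In O g → S (φ (bar g) w) v = S w (φ g v)) (N : ℕ) : ∀ {n κ}, Tn O n κ → n ≤ N →
    ∀ v w, ∃ x y : D, ι x = toL (W n κ (rep v)) ∧ ι y = toL (W n (st κ) (rep w)) ∧
      S y v = S w x := by
  induction N using Nat.strong_induction_on with
  | _ N ih =>
  intro n κ h
  induction h with
  | vc => exact fun _ v w => ⟨v, w, by rw [W_vc, d.tl], by rw [st_vc, W_vc, d.tl], rfl⟩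
  | zero n =>
    have z : ∀ ψ, toL (W n 0 ψ) = 0 := fun ψ => by
      have := W_smul 0 n 0 ψ
      rw [zero_smul, zero_smul] at this
      rw [this, toL_zero]
    have e : st 0 = 0 := funext fun σ => map_zero _
    exact fun _ v w => ⟨0, 0, by rw [z, map_zero], by rw [e, z, map_zero], by simp⟩
  | add t t' h h' =>
    intro l v w
    obtain ⟨x, y, e1, e2, e3⟩ := h l v w
    obtain ⟨x', y', f1, f2, f3⟩ := h' l v w
    have k := gs_nice t.nice
    have k' := gs_nice t'.nice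
    refine ⟨x + x', y + y', ?_, ?_, by simp only [map_add, LinearMap.add_apply, e3, f3]⟩
    · rw [map_add, e1, f1, W_add _ k k' (d.nice v), toL_add (nice_W _ k (d.nice v))
        (nice_W _ k' (d.nice v))]
    · rw [map_add, e2, f2, st_add, W_add _ k.st k'.st (d.nice w), toL_add (nice_W _ k.st (d.nice w))
        (nice_W _ k'.st (d.nice w))]
  | smul c t h =>
    intro l v w
    obtain ⟨x, y, e1, e2, e3⟩ := h l v w
    have k := gs_nice t.nice
    refine ⟨c • x, conj c • y, ?_, ?_, by simp only [LinearMap.map_smulₛₗ, LinearMap.smul_apply,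
      RingHom.id_apply, starRingEnd_self_apply, e3]⟩
    · rw [map_smul, e1, W_smul, toL_smul _ (nice_W _ k (d.nice v))]
    · rw [map_smul, e2, st_smul, W_smul, toL_smul _ (nice_W _ k.st (d.nice w))]
  | @cr g n κ i t h =>
    intro l v w
    have t' := (t.ct (Kr.hs_ft i.1)).1
    have b := P352X.Ap.test_bar i.1
    obtain ⟨x, y, e1, e2, e3⟩ := h (by omega) v (φ (bar g) w)
    obtain ⟨x', y', f1, f2, f3⟩ := ih (n - 1) (by omega) t' le_rfl v w
    refine ⟨((n : ℂ) + 1) • (φ g x - (n : ℂ) • x'), ((n : ℂ) + 1) • (y - (n : ℂ) • y'), ?_, ?_, ?_⟩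
    · rw [left wk i.1 t.nice t'.nice (d.nice v), map_smul, map_sub, map_smul, f1, d.ph _ _ i.1,
        dP i.1 (d.nice x) (nice_W _ (gs_nice t.nice) (d.nice v)) ((d.tl x).trans e1)]
    · rw [right wk i.1 t.nice t'.nice (d.nice w), map_smul, map_sub, map_smul, f2, e2,
        dW (gs_nice t.nice) (d.nice _) (nice_ph (Kr.hs_ft b) (d.nice w))
          ((d.tl _).trans (d.ph _ _ b))]
    · simp [LinearMap.map_smulₛₗ, e3, f3, hS g w x i]

theorem Dm.bd (d : Dm ι rep φ) (n a : ℕ) (v : D) : ∃ (N : ℕ) (C : ℝ), 0 ≤ C ∧ ∀ κ κ' ε, Gs κ →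
    Gs κ' → Sb a N ε (κ - κ') → ‖toL (W n κ (rep v)) - toL (W n κ' (rep v))‖ ≤ C * ε := by
  obtain ⟨K, K0, hK⟩ := norm_toL
  obtain ⟨M, K', K1, hM⟩ := bd_W n a 2
  obtain ⟨C, hC⟩ := (d.nice v).2 M
  refine ⟨M, K * K' * C, mul_nonneg (mul_nonneg K0 K1) hC.nn, fun κ κ' ε k k' s => ?_⟩
  have m : Gs ((-1 : ℂ) • κ') := ⟨k'.1.smul measurable_const, k'.2.imp fun _ h N => (h N).imp
    fun c b σ => by simpa using b σ⟩
  have e := W_add n k m (d.nice v)
  rw [W_smul, neg_one_smul, neg_one_smul, ← sub_eq_add_neg, ← sub_eq_add_neg] at e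
  rw [← toL_sub (nice_W n k (d.nice v)) (nice_W n k' (d.nice v)), ← e]
  exact (hK _ _ (ms_W n (k.1.sub k'.1) (d.nice v).1) (hM _ _ _ _ s hC)).trans_eq (by ring)

/-- **point splitting**, for a field `B` and its adjoint `B'` -/
theorem Dm.ps2 (d : Dm ι rep φ) (wk : WICK) (hP : Pn n P)
    (hB : ∀ f v, IsTest f → ι (B f v) = toL (W n (fun σ => P σ * ft f σ.sum) (rep v)))
    (hB' : ∀ f v, IsTest f → ι (B' f v) = toL (W n (fun σ => st P σ * ft f σ.sum) (rep v)))
    (hO : IsOpen O) (hf : In O f) (h1 : ∀ v, Continuous fun w => S w v)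
    (h2 : ∀ w, Continuous (S w)) (hS : ∀ g w v, In O g → S (φ (bar g) w) v = S w (φ g v))
    (w v : D) : S (B' (bar f) w) v = S w (B f v) := by
  have c1 : ContinuousAt (fun z : D × D => S z.1 v - S w z.2) (B' (bar f) w, B f v) :=
    (((h1 v).comp continuous_fst).sub ((h2 w).comp continuous_snd)).continuousAt
  rw [← sub_eq_zero]
  by_contra hne
  obtain ⟨ε, hε, h4⟩ := Metric.eventually_nhds_iff.1 (c1.eventually_ne hne)
  obtain ⟨a, ha⟩ := apx hO hf hP
  obtain ⟨N, C, C0, hC⟩ := d.bd n a v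
  obtain ⟨N', C', C0', hC'⟩ := d.bd n a w
  have hδ : 0 < ε / (C + C' + 1) := by positivity
  obtain ⟨κ, t, s⟩ := ha (max N N') _ hδ
  have s : Sb a (max N N') _ ((fun σ => P σ * ft f σ.sum) - κ) := s
  obtain ⟨x, y, e1, e2, e3⟩ := d.tn wk hS n t le_rfl v w
  have lt : ∀ c : ℝ, c ≤ C + C' → c * (ε / (C + C' + 1)) < ε := fun c hc =>
    (mul_lt_mul_of_pos_right (by linarith : c < C + C' + 1) hδ).trans_eq (by field_simp)
  have k := gs_sym hP hf.1
  have k' := gs_nice t.nice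
  refine h4 (y := (y, x)) ?_ (by simp only [e3, sub_self])
  rw [Prod.dist_eq, max_lt_iff, dist_comm, dist_eq_norm, dist_comm, dist_eq_norm, ← d.iso, ← d.iso,
    map_sub, map_sub, e1, e2, hB' _ _ (P352X.Ap.test_bar hf.1), hB _ _ hf.1, ← st_sym]
  refine ⟨(hC' _ _ _ k.st k'.st ?_).trans_lt (lt _ (by linarith)),
    (hC _ _ _ k k' (s.mono (le_max_left _ _))).trans_lt (lt _ (by linarith))⟩
  have := (s.mono (le_max_right _ _)).st
  rwa [show st (_ - κ) = st _ - st κ from funext fun σ => map_sub _ _ _] at this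

/-- **the row `ps`** -/
theorem Dm.ps (d : Dm ι rep φ) (wk : WICK) (hP : Pn n P) (hs : st P = P)
    (hB : ∀ f v, IsTest f → ι (B f v) = toL (W n (fun σ => P σ * ft f σ.sum) (rep v))) :
    PS φ B := fun _ _ _ hO hf h1 h2 hS =>
  d.ps2 wk hP hB (by rw [hs]; exact hB) hO hf h1 h2 hS

end

end Vale.Agent.P352R.Ap
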